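import Vale.Agent.Lib.P110.Basic

open Finset

/-- Let `P(z) = ∑_{k<N} ε_k z^k` with all `ε_k = ±1`.
(1) There are points `z`, `w` of the unit circle at which `|P|` attains its maximum resp. minimum
over the unit circle, and `(|P(z)|^2 - N) * (N - |P(w)|^2) ≥ N - 1`.
(2) If `(1-c) √N ≤ |P(x)| ≤ (1+c) √N` for all `|x| = 1`, then `c ≥ √(N-1) / (2N)`. -/
theorem Vale.Agent.Results.P110.DeviationProduct.result (N : ℕ) (hN : 1 ≤ N) (ε : ℕ → ℤ)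
    (hε : ∀ k < N, ε k = 1 ∨ ε k = -1) :
    (∃ z w : ℂ, ‖z‖ = 1 ∧ ‖w‖ = 1 ∧
      (∀ x : ℂ, ‖x‖ = 1 →
        ‖∑ k ∈ range N, (ε k : ℂ) * x ^ k‖ ≤ ‖∑ k ∈ range N, (ε k : ℂ) * z ^ k‖) ∧
      (∀ x : ℂ, ‖x‖ = 1 →
        ‖∑ k ∈ range N, (ε k : ℂ) * w ^ k‖ ≤ ‖∑ k ∈ range N, (ε k : ℂ) * x ^ k‖) ∧
      (N : ℝ) - 1 ≤ (‖∑ k ∈ range N, (ε k : ℂ) * z ^ k‖ ^ 2 - N)
        * (N - ‖∑ k ∈ range N, (ε k : ℂ) * w ^ k‖ ^ 2)) ∧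
    (∀ c : ℝ,
      (∀ x : ℂ, ‖x‖ = 1 →
        (1 - c) * Real.sqrt N ≤ ‖∑ k ∈ range N, (ε k : ℂ) * x ^ k‖ ∧
        ‖∑ k ∈ range N, (ε k : ℂ) * x ^ k‖ ≤ (1 + c) * Real.sqrt N) →
      Real.sqrt (N - 1) / (2 * N) ≤ c) :=
  ⟨Vale.Agent.Lib.P110.deviation_product' N ε hε,
   fun c hc => Vale.Agent.Lib.P110.flat_rate N ε hN hε c hc⟩
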